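import Vale.Agent.Lib.P015.Final

/-- Width theorem for walks of Gaussian primes: a walk with steps at most `D` inside a strip of
width at most `2 ^ k`, in any real direction and at any location, has endpoints at distance at
most `(k + 2) ^ (A * (k + 2))`, where `A` depends only on `D`. -/
theorem Vale.Agent.Results.P015.A_width.result (D : ℝ) :
    ∃ A : ℕ, ∀ (k : ℕ) (W a b c : ℝ) (n : ℕ) (z : ℕ → GaussianInt),
      a ^ 2 + b ^ 2 = 1 → W ≤ 2 ^ k →
      (∀ i ≤ n, Prime (z i)) →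
      (∀ i < n, (((z (i + 1) - z i).norm : ℤ) : ℝ) ≤ D ^ 2) →
      (∀ i ≤ n, |a * ((z i).re : ℝ) + b * ((z i).im : ℝ) - c| ≤ W) →
      (((z n - z 0).norm : ℤ) : ℝ) ≤ (((k + 2) ^ (A * (k + 2)) : ℕ) : ℝ) ^ 2 :=
  Vale.Agent.Lib.P015.width_theorem D
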